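import Vale.Agent.P265.H266.Sphere

/-! The numbers: if `h¹(X) ≥ 2` then `X × S¹ × S¹ × S²` has `h¹, …, h⁵ ≥ 2, 4, 4, 4, 2`. -/

open Set

namespace Vale.Agent.P265.AS

variable {E : Type} [PseudoMetricSpace E] {k : Type} [Field k]

theorem two_add_two : (2 : Cardinal) + 2 = 4 := by
  norm_num

/-- The cohomology of `X × S¹ × S¹ × S²` in terms of `h¹(X)`; `G` acts on the two circles through
roots of unity of order dividing `m`, the characteristic of `k` is positive and prime to `m`. -/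
theorem hh_product_ge' (g : E → E) (χ : k) (X : Set E) {ζ ρ : ℂ} {m : ℕ} (hm : (m : k) ≠ 0)
    (hζ : ζ ^ m = 1) (hρ : ρ ^ m = 1) {q : ℕ} (hq : (q : k) = 0) (hq0 : q ≠ 0)
    (h : 2 ≤ hh g χ X ∅ 1) :
    2 ≤ hh (Prod.map (rot (rot g ζ) ρ) id) χ (sph (circ (circ X))) ∅ 1 ∧
    4 ≤ hh (Prod.map (rot (rot g ζ) ρ) id) χ (sph (circ (circ X))) ∅ 2 ∧
    4 ≤ hh (Prod.map (rot (rot g ζ) ρ) id) χ (sph (circ (circ X))) ∅ 3 ∧
    4 ≤ hh (Prod.map (rot (rot g ζ) ρ) id) χ (sph (circ (circ X))) ∅ 4 ∧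
    2 ≤ hh (Prod.map (rot (rot g ζ) ρ) id) χ (sph (circ (circ X))) ∅ 5 := by
  -- the first circle
  have a1 : 2 ≤ hh (rot g ζ) χ (circ X) ∅ 1 := h.trans (hh_circ_ge g χ X hm hζ 1)
  have a2 : 2 ≤ hh (rot g ζ) χ (circ X) ∅ 2 :=
    (h.trans (self_le_add_left _ _)).trans (hh_circ_add g χ X hm hζ hq hq0 1)
  -- the second circle
  have b1 : 2 ≤ hh (rot (rot g ζ) ρ) χ (circ (circ X)) ∅ 1 :=
    a1.trans (hh_circ_ge _ χ _ hm hρ 1)
  have b2 : 4 ≤ hh (rot (rot g ζ) ρ) χ (circ (circ X)) ∅ 2 := by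
    rw [← two_add_two]
    exact (add_le_add a2 a1).trans (hh_circ_add _ χ _ hm hρ hq hq0 1)
  have b3 : 2 ≤ hh (rot (rot g ζ) ρ) χ (circ (circ X)) ∅ 3 :=
    (a2.trans (self_le_add_left _ _)).trans (hh_circ_add _ χ _ hm hρ hq hq0 2)
  -- the sphere
  refine ⟨b1.trans (hh_sph_ge _ χ _ 1), b2.trans (hh_sph_ge _ χ _ 2), ?_,
    (b2.trans (self_le_add_left _ _)).trans (hh_sph_add _ χ _ hq hq0 2),
    (b3.trans (self_le_add_left _ _)).trans (hh_sph_add _ χ _ hq hq0 3)⟩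
  rw [← two_add_two]
  exact (add_le_add b3 b1).trans (hh_sph_add _ χ _ hq hq0 1)

/-- The same for `m = 6` and characteristic `7`. -/
theorem hh_product_ge [Fact (Nat.Prime 7)] (g : E → E) (χ : ZMod 7) (X : Set E) {ζ ρ : ℂ}
    (hζ : ζ ^ 6 = 1) (hρ : ρ ^ 6 = 1) (h : 2 ≤ hh g χ X ∅ 1) :
    2 ≤ hh (Prod.map (rot (rot g ζ) ρ) id) χ (sph (circ (circ X))) ∅ 1 ∧
    4 ≤ hh (Prod.map (rot (rot g ζ) ρ) id) χ (sph (circ (circ X))) ∅ 2 ∧
    4 ≤ hh (Prod.map (rot (rot g ζ) ρ) id) χ (sph (circ (circ X))) ∅ 3 ∧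
    4 ≤ hh (Prod.map (rot (rot g ζ) ρ) id) χ (sph (circ (circ X))) ∅ 4 ∧
    2 ≤ hh (Prod.map (rot (rot g ζ) ρ) id) χ (sph (circ (circ X))) ∅ 5 :=
  hh_product_ge' (m := 6) (q := 7) g χ X (by
    intro h6
    have h7 := (ZMod.natCast_eq_zero_iff 6 7).1 h6
    omega) hζ hρ (ZMod.natCast_self 7) (by norm_num) h

/-- There is a nonzero class of degree `0`: a nonempty `X` has `h⁰ ≥ 1` (trivial character). -/
theorem one_le_hh_zero (g : E → E) (X : Set E) (hX : X.Nonempty) :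
    1 ≤ hh g (1 : k) X ∅ 0 := by
  rw [Cardinal.one_le_iff_ne_zero]
  intro h0
  rw [hh_eq_zero_iff] at h0
  obtain ⟨b, -, ε, hε, h1, h2⟩ := h0 (show (fun _ => (1 : k)) ∈ Zs g (1 : k) X ∅ 0 from
    ⟨fun x _ => by simp, 1, one_pos, fun x _ => by
      rw [d_succ_apply, d_zero_apply]; simp, fun x hx => absurd (hx.1 0) (Set.notMem_empty _)⟩)
  obtain ⟨a, ha⟩ := hX
  have e1 := h1 (fun _ => a) ⟨fun _ => ha, fun _ _ => by simpa using hε⟩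
  rw [d_zero_apply, h2] at e1
  · exact one_ne_zero e1
  · exact ⟨fun i => i.elim0, fun i => i.elim0⟩

end Vale.Agent.P265.AS
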