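import Vale.Agent.P265.H336.Htpy

/-! The circle factor: if `G` acts on `X` and on the circle by rotation through a root of unity,
then `h^(p+1)(X × S¹) ≥ h^(p+1)(X) + h^p(X)` and `h^p(X × S¹) ≥ h^p(X)`.  Everything is done
with explicit small cochains (the crossing cocycle of the circle and the integral along the
fibre, a sum of prism operators). -/

open Set Matrix Finset

namespace Vale.Agent.P265.AS

/-! ### Linear algebra -/

section LinearAlgebra

variable {k : Type} [Field k] {F F₁ F₂ : Type} [AddCommGroup F] [Module k F]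
  [AddCommGroup F₁] [Module k F₁] [AddCommGroup F₂] [Module k F₂]

theorem add_qr_le {Z B : Submodule k F} {Z₁ B₁ : Submodule k F₁} {Z₂ B₂ : Submodule k F₂}
    (T₁ : F₁ →ₗ[k] F) (T₂ : F₂ →ₗ[k] F) (h₁ : ∀ a ∈ Z₁, T₁ a ∈ Z) (h₂ : ∀ b ∈ Z₂, T₂ b ∈ Z)
    (hinj : ∀ a ∈ Z₁, ∀ b ∈ Z₂, T₁ a + T₂ b ∈ B → a ∈ B₁ ∧ b ∈ B₂) :
    qr Z₁ B₁ + qr Z₂ B₂ ≤ qr Z B := by
  have e1 : qr (Z₁.prod Z₂) (B₁.prod B₂) ≤ qr Z B := by
    refine qr_le_of_inj (T₁.coprod T₂) (fun c hc => ?_) fun c hc h => ?_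
    · rw [LinearMap.coprod_apply]
      exact Z.add_mem (h₁ _ hc.1) (h₂ _ hc.2)
    · rw [LinearMap.coprod_apply] at h
      exact hinj _ hc.1 _ hc.2 h
  refine le_trans ?_ e1
  unfold qr
  rw [← rank_prod']
  let π₁ : (Z₁.prod Z₂ : Submodule k (F₁ × F₂)) →ₗ[k] (Z₁ ⧸ B₁.comap Z₁.subtype) :=
    (B₁.comap Z₁.subtype).mkQ ∘ₗ LinearMap.codRestrict Z₁
      (LinearMap.fst k F₁ F₂ ∘ₗ (Z₁.prod Z₂).subtype) fun c => c.2.1
  let π₂ : (Z₁.prod Z₂ : Submodule k (F₁ × F₂)) →ₗ[k] (Z₂ ⧸ B₂.comap Z₂.subtype) :=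
    (B₂.comap Z₂.subtype).mkQ ∘ₗ LinearMap.codRestrict Z₂
      (LinearMap.snd k F₁ F₂ ∘ₗ (Z₁.prod Z₂).subtype) fun c => c.2.2
  have hk : (B₁.prod B₂).comap (Z₁.prod Z₂).subtype ≤ LinearMap.ker (π₁.prod π₂) := by
    rintro ⟨c, hc⟩ h
    rw [LinearMap.mem_ker, LinearMap.prod_apply, Prod.mk_eq_zero]
    constructor
    · exact (Submodule.Quotient.mk_eq_zero _).2 h.1
    · exact (Submodule.Quotient.mk_eq_zero _).2 h.2
  refine LinearMap.rank_le_of_surjective
    (((B₁.prod B₂).comap (Z₁.prod Z₂).subtype).liftQ (π₁.prod π₂) hk) ?_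
  rintro ⟨u, v⟩
  obtain ⟨u, rfl⟩ := Submodule.mkQ_surjective _ u
  obtain ⟨v, rfl⟩ := Submodule.mkQ_surjective _ v
  refine ⟨Submodule.Quotient.mk ⟨(u, v), ⟨u.2, v.2⟩⟩, ?_⟩
  rfl

end LinearAlgebra

/-! ### Formulas for tuples -/

section Tuples

variable {E E' E'' : Type} {k : Type} [Field k]

theorem prism_pb (f₀ f₁ : E → E') (h : E' → E'') {n : ℕ} (c : (Fin (n + 1) → E'') → k)
    (x : Fin n → E) : prism f₀ f₁ (pb h c) x = prism (h ∘ f₀) (h ∘ f₁) c x := by
  induction n with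
  | zero => rfl
  | succ n ih =>
    rw [prism_succ_apply, prism_succ_apply, ← ih]
    congr 1
    · simp only [pb_apply, comp_vecCons, Function.comp_apply, Function.comp_assoc]
    · congr 1
      funext y
      simp only [pb_apply, comp_vecCons, Function.comp_apply]

theorem prism_precomp (f₀ f₁ : E' → E'') (h : E → E') {n : ℕ} (c : (Fin (n + 1) → E'') → k)
    (x : Fin n → E) : prism f₀ f₁ c (h ∘ x) = prism (f₀ ∘ h) (f₁ ∘ h) c x := by
  induction n with
  | zero => rfl
  | succ n ih =>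
    rw [prism_succ_apply, prism_succ_apply, ← comp_vecTail, ih, ← comp_vecHead]
    rfl

/-- The prism operator only looks at tuples starting with `f₀ (x 0)`. -/
theorem prism_eq_zero_of_head (f₀ f₁ : E → E') {n : ℕ} {c : (Fin (n + 2) → E') → k}
    {x : Fin (n + 1) → E} (h : ∀ y, c (vecCons (f₀ (vecHead x)) y) = 0) :
    prism f₀ f₁ c x = 0 := by
  rw [prism_succ_apply, h, zero_sub, neg_eq_zero]
  exact prism_eq_zero _ _ fun y _ => h y

theorem d_fun_sub {n : ℕ} (c c' : (Fin n → E) → k) (x : Fin (n + 1) → E) :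
    d (fun y => c y - c' y) x = d c x - d c' x := congrFun (d_sub c c') x

theorem d_fun_mul {n : ℕ} (a : k) (c : (Fin n → E) → k) (x : Fin (n + 1) → E) :
    d (fun y => a * c y) x = a * d c x := congrFun (d_smul a c) x

/-- The product of a 1-cochain and a cochain. -/
def cup1 (w : E → E → k) {n : ℕ} : ((Fin (n + 1) → E) → k) →ₗ[k] ((Fin (n + 2) → E) → k) where
  toFun b x := w (x 0) (x 1) * b (vecTail x)
  map_add' b b' := by funext x; simp only [Pi.add_apply]; ring
  map_smul' a b := by funext x; simp only [Pi.smul_apply, smul_eq_mul, RingHom.id_apply]; ring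

theorem cup1_apply (w : E → E → k) {n : ℕ} (b : (Fin (n + 1) → E) → k) (x : Fin (n + 2) → E) :
    cup1 w b x = w (x 0) (x 1) * b (vecTail x) := rfl

theorem d_cup1 (w : E → E → k) {n : ℕ} (b : (Fin (n + 1) → E) → k) (x : Fin (n + 3) → E) :
    d (cup1 w b) x = (w (x 1) (x 2) - w (x 0) (x 2) + w (x 0) (x 1)) * b (vecTail (vecTail x))
      - cup1 w (d b) x := by
  have h0 : ∀ (a : E) (y : Fin (n + 1) → E), cup1 w b (vecCons a y) = w a (y 0) * b y := by
    intro a y
    rfl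
  have h1 : d (cup1 w b) x = cup1 w b (vecTail x)
      - (w (x 0) (x 2) * b (vecTail (vecTail x))
        - w (x 0) (x 1) * d (fun z => b (vecCons (x 1) z)) (vecTail (vecTail x))) := by
    rw [d_succ_apply]
    simp only [h0]
    rw [d_succ_apply, ← d_fun_mul]
    rfl
  rw [h1]
  have h2 : d b (vecTail x) = b (vecTail (vecTail x))
      - d (fun z => b (vecCons (x 1) z)) (vecTail (vecTail x)) := by
    rw [d_succ_apply]
    rfl
  have h3 : d (fun z => b (vecCons (x 1) z)) (vecTail (vecTail x)) =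
    b (vecTail (vecTail x)) - d b (vecTail x) := by rw [h2]; ring
  rw [h3, cup1_apply, cup1_apply]
  have e1 : vecTail x 0 = x 1 := rfl
  have e2 : vecTail x 1 = x 2 := rfl
  rw [e1, e2]
  ring

theorem sum_range_shift {A : Type} [AddCommGroup A] (F : ℕ → A) (N : ℕ)
    (hF : ∀ j, F (j + N) = F j) (s : ℕ) : ∑ j ∈ range N, F (j + s) = ∑ j ∈ range N, F j := by
  induction s with
  | zero => rfl
  | succ s ih =>
    rw [← ih]
    have h1 := Finset.sum_range_succ (fun j => F (j + s)) N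
    have h2 := Finset.sum_range_succ' (fun j => F (j + s)) N
    have h3 : F (N + s) = F (0 + s) := by rw [add_comm N s, hF, zero_add]
    rw [h2, h3] at h1
    have h4 := add_right_cancel h1
    rw [← h4]
    refine Finset.sum_congr rfl fun j _ => ?_
    rw [add_assoc, add_comm 1 s]

end Tuples

/-! ### The crossing cocycle of the circle -/

section Circle

variable {k : Type} [Field k]

open Complex

/-- indicator of the closed upper half plane -/
noncomputable def hup (k : Type) [Field k] (c : ℂ) : k := by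
  classical exact if 0 ≤ c.im then 1 else 0

/-- The crossing number of the negative real axis. -/
noncomputable def crs (k : Type) [Field k] (c c' : ℂ) : k := by
  classical exact if c.re < 0 then hup k c' - hup k c else 0

theorem hup_eq {c c' : ℂ} (hc : ‖c‖ = 1) (hre : |c.re| < 1 / 2) (h : dist c c' < 1 / 2) :
    hup k c' = hup k c := by
  have h1 : c.re ^ 2 + c.im ^ 2 = 1 := by
    have := Complex.sq_norm c
    rw [hc, Complex.normSq_apply] at this
    nlinarith
  have h2 : |c.im - c'.im| < 1 / 2 := by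
    have := Complex.abs_im_le_norm (c - c')
    rw [Complex.sub_im] at this
    rw [Complex.dist_eq] at h
    linarith
  have h3 : c.re ^ 2 < (1 / 2) ^ 2 := sq_lt_sq' (by linarith [(abs_lt.1 hre).1]) (abs_lt.1 hre).2
  have h4 := abs_lt.1 h2
  unfold hup
  by_cases hi : 0 ≤ c.im
  · rw [if_pos hi, if_pos]
    have : 1 / 2 < c.im := by nlinarith
    linarith
  · rw [if_neg hi, if_neg]
    push Not at hi ⊢
    have : c.im < - (1 / 2) := by nlinarith
    linarith

theorem crs_cocycle {c₀ c₁ c₂ : ℂ} (h₁ : ‖c₁‖ = 1)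
    (h01 : dist c₀ c₁ < 1 / 2) (h12 : dist c₁ c₂ < 1 / 2) :
    crs k c₁ c₂ - crs k c₀ c₂ + crs k c₀ c₁ = 0 := by
  have h2 : |c₀.re - c₁.re| < 1 / 2 := by
    have := Complex.abs_re_le_norm (c₀ - c₁)
    rw [Complex.sub_re] at this
    rw [Complex.dist_eq] at h01
    linarith
  have h3 := abs_lt.1 h2
  unfold crs
  by_cases a : c₀.re < 0 <;> by_cases b : c₁.re < 0
  · rw [if_pos a, if_pos a, if_pos b]; ring
  · have : |c₁.re| < 1 / 2 := by rw [abs_lt]; constructor <;> linarith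
    rw [if_pos a, if_pos a, if_neg b, hup_eq h₁ this h12]; ring
  · have : |c₁.re| < 1 / 2 := by rw [abs_lt]; constructor <;> linarith
    rw [if_neg a, if_neg a, if_pos b, hup_eq h₁ this h12]; ring
  · rw [if_neg a, if_neg a, if_neg b]; ring

theorem crs_self (c : ℂ) : crs k c c = 0 := by
  unfold crs; split_ifs <;> simp

/-- The sample points of the circle. -/
noncomputable def cc (N : ℕ) (j : ℕ) : ℂ := exp ((2 * Real.pi * j / N : ℝ) * I)

theorem norm_cc (N j : ℕ) : ‖cc N j‖ = 1 := Complex.norm_exp_ofReal_mul_I _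

theorem cc_re (N j : ℕ) : (cc N j).re = Real.cos (2 * Real.pi * j / N) :=
  Complex.exp_ofReal_mul_I_re _

theorem cc_im (N j : ℕ) : (cc N j).im = Real.sin (2 * Real.pi * j / N) :=
  Complex.exp_ofReal_mul_I_im _

theorem cc_add {N : ℕ} (i j : ℕ) : cc N (i + j) = cc N i * cc N j := by
  unfold cc
  rw [← Complex.exp_add]
  congr 1
  push_cast
  ring

theorem cc_zero (N : ℕ) : cc N 0 = 1 := by
  unfold cc; simp

theorem cc_N {N : ℕ} (hN : N ≠ 0) : cc N N = 1 := by
  unfold cc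
  rw [mul_div_assoc, div_self (by exact_mod_cast hN), mul_one]
  push_cast
  exact Complex.exp_two_pi_mul_I

theorem cc_period {N : ℕ} (hN : N ≠ 0) (j : ℕ) : cc N (j + N) = cc N j := by
  rw [cc_add, cc_N hN, mul_one]

theorem cc_pow {N : ℕ} (j : ℕ) : cc N j = cc N 1 ^ j := by
  induction j with
  | zero => rw [cc_zero, pow_zero]
  | succ j ih => rw [cc_add, ih, pow_succ]

theorem exists_cc {N : ℕ} (hN : N ≠ 0) {ρ : ℂ} (h : ρ ^ N = 1) : ∃ s, ρ = cc N s := by
  have h1 : cc N 1 = exp (2 * Real.pi * I / N) := by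
    unfold cc; congr 1; push_cast; ring
  have h2 := Complex.isPrimitiveRoot_exp N hN
  rw [← h1] at h2
  have : NeZero N := ⟨hN⟩
  obtain ⟨s, -, hs⟩ := h2.eq_pow_of_pow_eq_one h
  exact ⟨s, by rw [cc_pow, hs]⟩

theorem dist_cc (N j : ℕ) : dist (cc N j) (cc N (j + 1)) ≤ 2 * Real.pi / N := by
  rw [cc_add, Complex.dist_eq]
  have : cc N j - cc N j * cc N 1 = - (cc N j * (cc N 1 - 1)) := by ring
  rw [this, norm_neg, norm_mul, norm_cc, one_mul]
  unfold cc
  have h := Real.norm_exp_I_mul_ofReal_sub_one_le (x := 2 * Real.pi * (1 : ℕ) / N)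
  rw [mul_comm] at h
  refine h.trans ?_
  rw [Real.norm_eq_abs, abs_of_nonneg (by positivity)]
  simp

theorem sum_crs {M : ℕ} (hM : 0 < M) :
    ∑ j ∈ range (4 * M), crs k (cc (4 * M) j) (cc (4 * M) (j + 1)) = -1 := by
  have hM' : (0 : ℝ) < M := by exact_mod_cast hM
  have hπ := Real.pi_pos
  have ang : ∀ j : ℕ, 2 * Real.pi * j / ((4 * M : ℕ) : ℝ) = Real.pi * (j / (2 * M)) := by
    intro j; push_cast; field_simp; ring
  -- `Re < 0` iff `M < j < 3 M`
  have hre : ∀ j : ℕ, j < 4 * M → ((cc (4 * M) j).re < 0 ↔ M < j ∧ j < 3 * M) := by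
    intro j hj
    rw [cc_re, ang]
    constructor
    · intro h
      by_contra hc
      rw [not_and_or, not_lt, not_lt] at hc
      rcases hc with hc | hc
      · have h1 : (j : ℝ) / (2 * M) ≤ 1 / 2 := by
          rw [div_le_iff₀ (by positivity)]
          have : (j : ℝ) ≤ M := by exact_mod_cast hc
          linarith
        have : 0 ≤ Real.cos (Real.pi * (j / (2 * M))) := by
          apply Real.cos_nonneg_of_neg_pi_div_two_le_of_le
          · have : 0 ≤ Real.pi * (j / (2 * M) : ℝ) := by positivity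
            linarith
          · nlinarith
        linarith
      · have h1 : 3 / 2 ≤ (j : ℝ) / (2 * M) := by
          rw [le_div_iff₀ (by positivity)]
          have : (3 : ℝ) * M ≤ j := by exact_mod_cast hc
          linarith
        have h2 : (j : ℝ) / (2 * M) < 2 := by
          rw [div_lt_iff₀ (by positivity)]
          have : (j : ℝ) < 4 * M := by exact_mod_cast hj
          linarith
        have : 0 ≤ Real.cos (Real.pi * (j / (2 * M)) - 2 * Real.pi) := by
          apply Real.cos_nonneg_of_neg_pi_div_two_le_of_le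
          · nlinarith
          · nlinarith
        rw [Real.cos_sub_two_pi] at this
        linarith
    · rintro ⟨h1, h2⟩
      have h3 : 1 / 2 < (j : ℝ) / (2 * M) := by
        rw [lt_div_iff₀ (by positivity)]
        have : (M : ℝ) < j := by exact_mod_cast h1
        linarith
      have h4 : (j : ℝ) / (2 * M) < 3 / 2 := by
        rw [div_lt_iff₀ (by positivity)]
        have : (j : ℝ) < 3 * M := by exact_mod_cast h2
        linarith
      apply Real.cos_neg_of_pi_div_two_lt_of_lt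
      · nlinarith
      · nlinarith
  have hup1 : ∀ j : ℕ, j ≤ 2 * M → hup k (cc (4 * M) j) = 1 := by
    intro j hj
    unfold hup
    rw [if_pos]
    rw [cc_im, ang]
    apply Real.sin_nonneg_of_nonneg_of_le_pi
    · positivity
    · have h1 : (j : ℝ) / (2 * M) ≤ 1 := by
        rw [div_le_iff₀ (by positivity)]
        have : (j : ℝ) ≤ 2 * M := by exact_mod_cast hj
        linarith
      nlinarith
  have hup0 : hup k (cc (4 * M) (3 * M)) = 0 := by
    unfold hup
    rw [if_neg]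
    rw [cc_im, ang, not_le]
    have : Real.pi * (((3 * M : ℕ) : ℝ) / (2 * M)) = Real.pi / 2 + Real.pi := by
      push_cast; field_simp; ring
    rw [this, Real.sin_add_pi, Real.sin_pi_div_two]
    norm_num
  have tele : ∀ n : ℕ, ∑ j ∈ Finset.Ico (M + 1) (M + 1 + n),
      (hup k (cc (4 * M) (j + 1)) - hup k (cc (4 * M) j)) =
      hup k (cc (4 * M) (M + 1 + n)) - hup k (cc (4 * M) (M + 1)) := by
    intro n
    rw [Finset.sum_Ico_eq_sum_range, Nat.add_sub_cancel_left]
    exact Finset.sum_range_sub (fun j => hup k (cc (4 * M) (M + 1 + j))) n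
  have h1 : ∑ j ∈ range (4 * M), crs k (cc (4 * M) j) (cc (4 * M) (j + 1)) =
      ∑ j ∈ Finset.Ico (M + 1) (3 * M), (hup k (cc (4 * M) (j + 1)) - hup k (cc (4 * M) j)) := by
    rw [← Finset.sum_filter_add_sum_filter_not (range (4 * M)) (fun j => M < j ∧ j < 3 * M)]
    have e1 : ∑ j ∈ range (4 * M) with ¬ (M < j ∧ j < 3 * M),
        crs k (cc (4 * M) j) (cc (4 * M) (j + 1)) = 0 := by
      apply Finset.sum_eq_zero
      intro j hj
      rw [Finset.mem_filter, Finset.mem_range] at hj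
      unfold crs
      rw [if_neg]
      rw [hre j hj.1]
      exact hj.2
    rw [e1, add_zero]
    have e2 : (range (4 * M)).filter (fun j => M < j ∧ j < 3 * M) = Finset.Ico (M + 1) (3 * M) := by
      ext j
      rw [Finset.mem_filter, Finset.mem_range, Finset.mem_Ico]
      omega
    rw [e2]
    apply Finset.sum_congr rfl
    intro j hj
    rw [Finset.mem_Ico] at hj
    unfold crs
    rw [if_pos]
    rw [hre j (by omega)]
    omega
  rw [h1]
  obtain ⟨n, hn⟩ : ∃ n, 3 * M = M + 1 + n := ⟨2 * M - 1, by omega⟩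
  rw [hn, tele, ← hn, hup0, hup1 (M + 1) (by omega)]
  ring

/-- The crossing cocycle averaged over the rotations `ρ^i`, `i < m`. -/
noncomputable def avc (k : Type) [Field k] (ρ : ℂ) (m : ℕ) (c c' : ℂ) : k :=
  (m : k)⁻¹ * ∑ i ∈ range m, crs k (ρ ^ i * c) (ρ ^ i * c')

theorem avc_self (ρ : ℂ) (m : ℕ) (c : ℂ) : avc k ρ m c c = 0 := by
  unfold avc
  simp [crs_self]

theorem avc_rot {ρ : ℂ} {m : ℕ} (h : ρ ^ m = 1) (c c' : ℂ) :
    avc k ρ m (ρ * c) (ρ * c') = avc k ρ m c c' := by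
  unfold avc
  congr 1
  have := sum_range_shift (fun i => crs k (ρ ^ i * c) (ρ ^ i * c')) m
    (fun j => by rw [pow_add, h, mul_one]) 1
  rw [← this]
  refine Finset.sum_congr rfl fun i _ => ?_
  rw [pow_add, pow_one, mul_assoc, mul_assoc]

theorem norm_of_pow {ρ : ℂ} {m : ℕ} (hm : m ≠ 0) (h : ρ ^ m = 1) : ‖ρ‖ = 1 :=
  norm_eq_one_of_pow_eq_one h hm

theorem avc_cocycle {ρ : ℂ} {m : ℕ} (hm : m ≠ 0) (h : ρ ^ m = 1) {c₀ c₁ c₂ : ℂ} (h₁ : ‖c₁‖ = 1)
    (h01 : dist c₀ c₁ < 1 / 2) (h12 : dist c₁ c₂ < 1 / 2) :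
    avc k ρ m c₁ c₂ - avc k ρ m c₀ c₂ + avc k ρ m c₀ c₁ = 0 := by
  have hρ := norm_of_pow hm h
  unfold avc
  rw [← mul_sub, ← mul_add, ← Finset.sum_sub_distrib, ← Finset.sum_add_distrib]
  rw [Finset.sum_eq_zero, mul_zero]
  intro i _
  have hi : ‖ρ ^ i‖ = 1 := by rw [norm_pow, hρ, one_pow]
  apply crs_cocycle
  · rw [norm_mul, hi, h₁, one_mul]
  · rw [Complex.dist_eq] at h01 ⊢
    rw [← mul_sub, norm_mul, hi, one_mul]; exact h01
  · rw [Complex.dist_eq] at h12 ⊢
    rw [← mul_sub, norm_mul, hi, one_mul]; exact h12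

theorem sum_avc {ρ : ℂ} {m : ℕ} (hm : (m : k) ≠ 0) {M : ℕ} (hM : 0 < M)
    (h : ρ ^ (4 * M) = 1) :
    ∑ j ∈ range (4 * M), avc k ρ m (cc (4 * M) j) (cc (4 * M) (j + 1)) = -1 := by
  have hN : 4 * M ≠ 0 := by omega
  unfold avc
  rw [← Finset.mul_sum, Finset.sum_comm]
  have : ∀ i ∈ range m, ∑ j ∈ range (4 * M), crs k (ρ ^ i * cc (4 * M) j)
      (ρ ^ i * cc (4 * M) (j + 1)) = -1 := by
    intro i _
    have h1 : (ρ ^ i) ^ (4 * M) = 1 := by rw [← pow_mul, mul_comm, pow_mul, h, one_pow]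
    obtain ⟨s, hs⟩ := exists_cc hN h1
    rw [← sum_crs (k := k) hM]
    rw [← sum_range_shift (fun j => crs k (cc (4 * M) j) (cc (4 * M) (j + 1))) (4 * M)
      (fun j => by
        rw [cc_period hN, show j + 4 * M + 1 = (j + 1) + 4 * M by ring, cc_period hN]) s]
    refine Finset.sum_congr rfl fun j _ => ?_
    rw [hs, ← cc_add, ← cc_add, add_comm s j, show s + (j + 1) = j + s + 1 by ring]
  rw [Finset.sum_congr rfl this]
  simp only [Finset.sum_const, Finset.card_range, nsmul_eq_mul]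
  rw [← mul_assoc, inv_mul_cancel₀ hm, one_mul]

end Circle

/-! ### Integration along the circle -/

section Main

variable {E : Type} {k : Type} [Field k]

/-- Integration along the circle, for the subdivision in `N` arcs. -/
noncomputable def circI (N : ℕ) {n : ℕ} (c : (Fin (n + 1) → E × ℂ) → k) (x : Fin n → E) : k :=
  ∑ j ∈ range N, prism (fun a => (a, cc N j)) (fun a => (a, cc N (j + 1))) c x

theorem circI_zero {N : ℕ} (c : (Fin 1 → E × ℂ) → k) (x : Fin 0 → E) : circI N c x = 0 :=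
  Finset.sum_eq_zero fun _ _ => rfl

theorem circI_d {N : ℕ} (hN : N ≠ 0) {n : ℕ} (c : (Fin (n + 1) → E × ℂ) → k)
    (x : Fin (n + 1) → E) : circI N (d c) x = - d (circI N c) x := by
  have h1 : d (circI N c) x =
      ∑ j ∈ range N, d (prism (fun a => (a, cc N j)) (fun a => (a, cc N (j + 1))) c) x := by
    have : circI N c = ∑ j ∈ range N, prism (fun a : E => (a, cc N j))
        (fun a => (a, cc N (j + 1))) c := by
      funext y; rw [Finset.sum_apply]; rfl
    rw [this, ← dL_apply, map_sum, Finset.sum_apply]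
    rfl
  rw [h1, eq_neg_iff_add_eq_zero, circI, ← Finset.sum_add_distrib]
  have h2 : ∀ j ∈ range N, prism (fun a : E => (a, cc N j)) (fun a => (a, cc N (j + 1))) (d c) x +
      d (prism (fun a => (a, cc N j)) (fun a => (a, cc N (j + 1))) c) x =
      c ((fun a => (a, cc N (j + 1))) ∘ x) - c ((fun a => (a, cc N j)) ∘ x) := by
    intro j _
    rw [add_comm, d_prism]
  rw [Finset.sum_congr rfl h2, Finset.sum_range_sub (fun j => c ((fun a => (a, cc N j)) ∘ x)),
    cc_N hN, cc_zero, sub_self]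

theorem circI_pb {N : ℕ} (h : (N : k) = 0) {n : ℕ} (a : (Fin (n + 1) → E) → k)
    (x : Fin n → E) : circI N (pb (Prod.fst : E × ℂ → E) a) x = 0 := by
  have h2 : ∀ j ∈ range N, prism (fun a : E => (a, cc N j)) (fun a => (a, cc N (j + 1)))
      (pb Prod.fst a) x = prism id id a x := by
    intro j _
    rw [prism_pb]; rfl
  rw [circI, Finset.sum_congr rfl h2, Finset.sum_const, Finset.card_range, nsmul_eq_mul, h,
    zero_mul]

theorem circI_cup {N : ℕ} (w : ℂ → ℂ → k) (hw : ∀ c, w c c = 0) {n : ℕ}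
    (b : (Fin (n + 1) → E) → k) (x : Fin (n + 1) → E) :
    circI N (cup1 (fun p q : E × ℂ => w p.2 q.2) (pb Prod.fst b)) x =
      (∑ j ∈ range N, w (cc N j) (cc N (j + 1))) * b x := by
  rw [circI, Finset.sum_mul]
  refine Finset.sum_congr rfl fun j _ => ?_
  rw [prism_succ_apply]
  have h1 : prism (fun a : E => (a, cc N j)) (fun a => (a, cc N (j + 1)))
      (fun y => cup1 (fun p q : E × ℂ => w p.2 q.2) (pb Prod.fst b)
        (vecCons (vecHead x, cc N j) y)) (vecTail x) = 0 := by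
    cases n with
    | zero => rfl
    | succ n =>
      apply prism_eq_zero_of_head
      intro y
      rw [cup1_apply]
      simp only [cons_val_zero, cons_val_one, hw, zero_mul]
  rw [h1, sub_zero, cup1_apply, tail_cons, pb_apply, comp_vecCons]
  simp only [cons_val_zero, cons_val_one]
  congr 2
  refine Eq.trans ?_ (cons_head_tail x)
  congr 1

theorem circI_congr {N : ℕ} {n : ℕ} {c c' : (Fin (n + 1) → E × ℂ) → k} {x : Fin n → E}
    (h : ∀ j < N, ∀ y : Fin (n + 1) → E × ℂ, (∀ i, ∃ l, y i = (x l, cc N j) ∨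
      y i = (x l, cc N (j + 1))) → c y = c' y) : circI N c x = circI N c' x := by
  refine Finset.sum_congr rfl fun j hj => ?_
  have : prism (fun a : E => (a, cc N j)) (fun a => (a, cc N (j + 1))) (c - c') x = 0 := by
    apply prism_eq_zero
    intro y hy
    rw [Pi.sub_apply, h j (Finset.mem_range.1 hj) y hy, sub_self]
  rw [prism_sub, Pi.sub_apply, sub_eq_zero] at this
  exact this

variable [PseudoMetricSpace E]

/-- the product with the unit circle -/
def circ (X : Set E) : Set (E × ℂ) := {p | p.1 ∈ X ∧ ‖p.2‖ = 1}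

/-- the diagonal action -/
def rot (g : E → E) (ρ : ℂ) (p : E × ℂ) : E × ℂ := (g p.1, ρ * p.2)

omit [PseudoMetricSpace E] in
theorem circI_eqv {g : E → E} {χ : k} {X : Set E} {ρ : ℂ} {N : ℕ} (hN : N ≠ 0) (h : ρ ^ N = 1)
    {n : ℕ} {c : (Fin (n + 1) → E × ℂ) → k} (hc : Eqv (rot g ρ) χ (circ X) c) :
    Eqv g χ X (circI N c) := by
  obtain ⟨s, hs⟩ := exists_cc hN h
  intro x hx
  rw [circI, circI, Finset.mul_sum]
  rw [← sum_range_shift (fun j => prism (fun a : E => (a, cc N j)) (fun a => (a, cc N (j + 1)))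
    c (g ∘ x)) N (fun j => by
      rw [cc_period hN, show j + N + 1 = (j + 1) + N by ring, cc_period hN]) s]
  refine Finset.sum_congr rfl fun j _ => ?_
  rw [prism_precomp]
  have e0 : ((fun a : E => (a, cc N (j + s))) ∘ g) = rot g ρ ∘ (fun a => (a, cc N j)) := by
    funext a
    simp only [Function.comp_apply, rot, hs, ← cc_add, add_comm]
  have e1 : ((fun a : E => (a, cc N (j + s + 1))) ∘ g) =
      rot g ρ ∘ (fun a => (a, cc N (j + 1))) := by
    funext a
    simp only [Function.comp_apply, rot, hs, ← cc_add]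
    congr 2
    ring
  rw [e0, e1, ← prism_pb]
  have : prism (fun a : E => (a, cc N j)) (fun a => (a, cc N (j + 1)))
      (pb (rot g ρ) c - χ • c) x = 0 := by
    apply prism_eq_zero
    intro y hy
    rw [Pi.sub_apply, pb_apply, hc y, Pi.smul_apply, smul_eq_mul, sub_self]
    intro i
    obtain ⟨l, hl | hl⟩ := hy i <;> rw [hl]
    · exact ⟨hx l, norm_cc _ _⟩
    · exact ⟨hx l, norm_cc _ _⟩
  rw [prism_sub, prism_smul, Pi.sub_apply, sub_eq_zero] at this
  exact this

/-- average over the orbit of `1` -/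
noncomputable def avg (ρ : ℂ) (m : ℕ) {n : ℕ} (c : (Fin n → E × ℂ) → k) (x : Fin n → E) : k :=
  (m : k)⁻¹ * ∑ i ∈ range m, c ((fun a => (a, ρ ^ i)) ∘ x)

omit [PseudoMetricSpace E] in
theorem avg_eqv {g : E → E} {χ : k} {X : Set E} {ρ : ℂ} {m : ℕ} (hm : m ≠ 0) (h : ρ ^ m = 1)
    {n : ℕ} {c : (Fin n → E × ℂ) → k} (hc : Eqv (rot g ρ) χ (circ X) c) :
    Eqv g χ X (avg ρ m c) := by
  have hρ := norm_of_pow hm h
  intro x hx
  have e1 := sum_range_shift (fun i => c ((fun a => (a, ρ ^ i)) ∘ g ∘ x)) m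
    (fun j => by rw [pow_add, h, mul_one]) 1
  have e2 : ∀ i ∈ range m, c ((fun a => (a, ρ ^ (i + 1))) ∘ g ∘ x) =
      χ * c ((fun a => (a, ρ ^ i)) ∘ x) := by
    intro i _
    rw [← hc]
    · congr 1
      funext l
      simp only [Function.comp_apply, rot, pow_succ, mul_comm]
    · intro l
      exact ⟨hx l, by simp [hρ]⟩
  unfold avg
  rw [← e1, Finset.sum_congr rfl e2, ← Finset.mul_sum]
  ring

omit [PseudoMetricSpace E] in
theorem d_avg {ρ : ℂ} {m : ℕ} {n : ℕ} (c : (Fin n → E × ℂ) → k) (x : Fin (n + 1) → E) :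
    d (avg ρ m c) x = avg ρ m (d c) x := by
  have h1 : avg ρ m c = (m : k)⁻¹ • ∑ i ∈ range m, pb (fun a : E => (a, ρ ^ i)) c := by
    funext y
    rw [Pi.smul_apply, Finset.sum_apply]; rfl
  rw [h1, d_smul, Pi.smul_apply, ← dL_apply, map_sum, Finset.sum_apply]
  simp only [dL_apply, d_pb]
  rfl

theorem Sm.circ {X : Set E} {ε : ℝ} {n m : ℕ} {x : Fin n → E} (hx : Sm X ε x) {c c' : ℂ}
    (hc : ‖c‖ = 1) (hc' : ‖c'‖ = 1) (h : dist c c' < ε) {y : Fin m → E × ℂ}
    (hy : ∀ i, ∃ l, y i = (x l, c) ∨ y i = (x l, c')) : Sm (AS.circ X) ε y := by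
  have hε : 0 < ε := dist_nonneg.trans_lt h
  refine ⟨fun i => ?_, fun i j => ?_⟩
  · obtain ⟨l, hl | hl⟩ := hy i <;> rw [hl]
    · exact ⟨hx.1 l, hc⟩
    · exact ⟨hx.1 l, hc'⟩
  · obtain ⟨l, hl⟩ := hy i
    obtain ⟨l', hl'⟩ := hy j
    rw [Prod.dist_eq, max_lt_iff]
    rcases hl with hl | hl <;> rcases hl' with hl' | hl' <;> rw [hl, hl']
    · exact ⟨hx.2 _ _, by simpa using hε⟩
    · exact ⟨hx.2 _ _, h⟩
    · exact ⟨hx.2 _ _, by rw [dist_comm]; exact h⟩
    · exact ⟨hx.2 _ _, by simpa using hε⟩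

theorem isMapP_fst {g : E → E} {X : Set E} {ρ : ℂ} :
    IsMapP (rot g ρ) g (circ X) ∅ X ∅ (Prod.fst : E × ℂ → E) where
  mapsX := fun x hx => hx.1
  mapsA := fun x hx => hx
  eqv := fun x _ => rfl
  uc := fun ε hε => ⟨ε, hε, fun x _ y _ h => lt_of_le_of_lt (by
    rw [Prod.dist_eq]; exact le_max_left _ _) h⟩

/-- restricting to the sample points `ρ^i` -/
theorem mem_Bs_of_pb {g : E → E} {χ : k} {X : Set E} {ρ : ℂ} {m : ℕ} (hm : (m : k) ≠ 0)
    (h : ρ ^ m = 1) {p : ℕ} {a : (Fin (p + 1) → E) → k}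
    (ha : pb (Prod.fst : E × ℂ → E) a ∈ Bs (rot g ρ) χ (circ X) ∅ p) : a ∈ Bs g χ X ∅ p := by
  have hm0 : m ≠ 0 := by rintro rfl; simp at hm
  have hρ := norm_of_pow hm0 h
  obtain ⟨c, hc, ε, hε, h1, h2⟩ := ha
  have hsm : ∀ {n : ℕ} {Y : Set E} (x : Fin n → E), Sm Y ε x → ∀ i : ℕ,
      Sm (circ Y) ε ((fun a => (a, ρ ^ i)) ∘ x) := fun x hx i =>
    hx.circ (c := ρ ^ i) (c' := ρ ^ i) (by simp [hρ]) (by simp [hρ]) (by simpa using hε)
      fun j => ⟨j, Or.inl rfl⟩
  refine ⟨avg ρ m c, avg_eqv hm0 h hc, ε, hε, fun x hx => ?_, fun x hx => ?_⟩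
  · rw [d_avg, avg]
    rw [Finset.sum_congr rfl fun i _ => (h1 _ (hsm x hx i)).symm]
    have : ∀ i ∈ range m, pb (Prod.fst : E × ℂ → E) a ((fun a => (a, ρ ^ i)) ∘ x) = a x :=
      fun i _ => rfl
    rw [Finset.sum_congr rfl this, Finset.sum_const, Finset.card_range, nsmul_eq_mul,
      ← mul_assoc, inv_mul_cancel₀ hm, one_mul]
  · rw [avg, Finset.sum_eq_zero, mul_zero]
    intro i _
    refine h2 _ ⟨fun l => ?_, fun l l' => ?_⟩
    · exact absurd (hx.1 l) (Set.notMem_empty _)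
    · exact absurd (hx.1 l) (Set.notMem_empty _)

/-- `h^p(X × S¹) ≥ h^p(X)`. -/
theorem hh_circ_ge (g : E → E) (χ : k) (X : Set E) {ρ : ℂ} {m : ℕ} (hm : (m : k) ≠ 0)
    (h : ρ ^ m = 1) (p : ℕ) : hh g χ X ∅ p ≤ hh (rot g ρ) χ (circ X) ∅ p :=
  qr_le_of_inj (pb Prod.fst) (fun _ hc => pb_mem_Zs isMapP_fst (Set.empty_subset _) hc)
    fun _ _ hcB => mem_Bs_of_pb hm h hcB

theorem cup_mem_Zs {g : E → E} {χ : k} {X : Set E} {ρ : ℂ} {m : ℕ} (hm : m ≠ 0)
    (h : ρ ^ m = 1) {p : ℕ} {b : (Fin (p + 1) → E) → k} (hb : b ∈ Zs g χ X ∅ p) :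
    cup1 (fun p q : E × ℂ => avc k ρ m p.2 q.2) (pb Prod.fst b) ∈
      Zs (rot g ρ) χ (circ X) ∅ (p + 1) := by
  obtain ⟨hb, ε, hε, h1, h2⟩ := hb
  refine ⟨fun x hx => ?_, min ε (1 / 2), lt_min hε (by norm_num), fun x hx => ?_,
    fun x hx => absurd (hx.1 0) (Set.notMem_empty _)⟩
  · rw [cup1_apply, cup1_apply]
    have e1 : pb (Prod.fst : E × ℂ → E) b (vecTail (rot g ρ ∘ x)) =
        χ * pb Prod.fst b (vecTail x) := by
      rw [pb_apply, pb_apply, ← hb (Prod.fst ∘ vecTail x) fun i => (hx _).1]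
      rfl
    rw [e1]
    simp only [Function.comp_apply, rot]
    rw [avc_rot h]
    ring
  · rw [d_cup1, d_pb]
    have hd : ∀ i j, dist (x i).2 (x j).2 < 1 / 2 := fun i j => by
      have := hx.2 i j
      rw [Prod.dist_eq, max_lt_iff] at this
      exact this.2.trans_le (min_le_right _ _)
    rw [avc_cocycle hm h (hx.1 1).2 (hd 0 1) (hd 1 2), zero_mul, cup1_apply, pb_apply, h1,
      mul_zero, sub_zero]
    refine ⟨fun i => (hx.1 _).1, fun i j => ?_⟩
    have := hx.2 i.succ j.succ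
    rw [Prod.dist_eq, max_lt_iff] at this
    exact this.1.trans_le (min_le_left _ _)

theorem exists_N {m q : ℕ} (hm : m ≠ 0) (hq : q ≠ 0) {ε : ℝ} (hε : 0 < ε) :
    ∃ M : ℕ, 0 < M ∧ m ∣ 4 * M ∧ q ∣ 4 * M ∧ 2 * Real.pi / ((4 * M : ℕ) : ℝ) < ε := by
  obtain ⟨r, hr⟩ := exists_nat_gt (2 * Real.pi / ε)
  have hπ := Real.pi_pos
  have hr0 : (0 : ℝ) < r := lt_trans (by positivity) hr
  have hr0' : 0 < r := by exact_mod_cast hr0
  refine ⟨m * q * r, by positivity, ⟨4 * (q * r), by ring⟩, ⟨4 * (m * r), by ring⟩, ?_⟩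
  rw [div_lt_iff₀ (by positivity)]
  rw [div_lt_iff₀ hε] at hr
  have h1 : (1 : ℝ) ≤ m := by exact_mod_cast Nat.one_le_iff_ne_zero.2 hm
  have h2 : (1 : ℝ) ≤ q := by exact_mod_cast Nat.one_le_iff_ne_zero.2 hq
  have h3 : (1 : ℝ) ≤ 4 * (m * q) := by nlinarith
  push_cast
  calc 2 * Real.pi < r * ε := hr
    _ ≤ (4 * (m * q)) * (r * ε) := le_mul_of_one_le_left (by positivity) h3
    _ = ε * (4 * (m * q * r)) := by ring

/-- `h^(p+1)(X × S¹) ≥ h^(p+1)(X) + h^p(X)`. -/
theorem hh_circ_add (g : E → E) (χ : k) (X : Set E) {ρ : ℂ} {m : ℕ} (hm : (m : k) ≠ 0)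
    (h : ρ ^ m = 1) {q : ℕ} (hq : (q : k) = 0) (hq0 : q ≠ 0) (p : ℕ) :
    hh g χ X ∅ (p + 1) + hh g χ X ∅ p ≤ hh (rot g ρ) χ (circ X) ∅ (p + 1) := by
  have hm0 : m ≠ 0 := by rintro rfl; simp at hm
  refine add_qr_le (pb Prod.fst)
    (cup1 (fun p q : E × ℂ => avc k ρ m p.2 q.2) ∘ₗ pb Prod.fst)
    (fun _ hc => pb_mem_Zs isMapP_fst (Set.empty_subset _) hc)
    (fun b hb => cup_mem_Zs hm0 h hb) ?_
  rintro a ha b hb ⟨c, hc, ε, hε, h1, -⟩
  obtain ⟨M, hM, hmM, hqM, hlt⟩ := exists_N hm0 hq0 hε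
  have hN : 4 * M ≠ 0 := by omega
  have hρN : ρ ^ (4 * M) = 1 := by
    obtain ⟨r, hr⟩ := hmM
    rw [hr, pow_mul, h, one_pow]
  have hNk : ((4 * M : ℕ) : k) = 0 := by
    obtain ⟨r, hr⟩ := hqM
    rw [hr, Nat.cast_mul, hq, zero_mul]
  -- `b` is the coboundary of the integral of `c`
  have hb' : ∀ x, Sm X ε x → b x = d (circI (4 * M) c) x := by
    intro x hx
    have e1 : circI (4 * M) (pb (Prod.fst : E × ℂ → E) a +
        cup1 (fun p q : E × ℂ => avc k ρ m p.2 q.2) (pb Prod.fst b)) x =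
        circI (4 * M) (d c) x := by
      refine circI_congr fun j hj y hy => h1 y ?_
      exact hx.circ (norm_cc _ _) (norm_cc _ _) ((dist_cc _ _).trans_lt hlt) hy
    have e2 : circI (4 * M) (pb (Prod.fst : E × ℂ → E) a +
        cup1 (fun p q : E × ℂ => avc k ρ m p.2 q.2) (pb Prod.fst b)) x = - b x := by
      have e3 := circI_pb (E := E) hNk a x
      have e4 := circI_cup (N := 4 * M) (avc k ρ m) (avc_self ρ m) b x
      rw [sum_avc hm hM hρN] at e4
      unfold circI at e3 e4 ⊢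
      simp only [prism_add, Pi.add_apply, Finset.sum_add_distrib]
      rw [e3, e4]
      ring
    rw [e2, circI_d hN] at e1
    exact neg_injective e1
  have hβ : Eqv g χ X (circI (4 * M) c) := circI_eqv hN hρN hc
  constructor
  · -- then `a` is a coboundary
    apply mem_Bs_of_pb hm h
    cases p with
    | zero =>
      refine ⟨c, hc, ε, hε, fun x hx => ?_, fun x hx => absurd (hx.1 0) (Set.notMem_empty _)⟩
      rw [← h1 x hx]
      have : b (Prod.fst ∘ vecTail x) = 0 := by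
        rw [hb']
        · rw [show circI (4 * M) c = 0 from funext fun y => circI_zero c y, d_zero]; rfl
        · refine ⟨fun i => (hx.1 _).1, fun i j => ?_⟩
          have := hx.2 i.succ j.succ
          rw [Prod.dist_eq, max_lt_iff] at this
          exact this.1
      simp only [LinearMap.comp_apply, Pi.add_apply, cup1_apply, pb_apply, this]
      ring
    | succ p =>
      refine ⟨c + cup1 (fun p q : E × ℂ => avc k ρ m p.2 q.2)
          (pb Prod.fst (circI (4 * M) c)), ?_,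
        min ε (1 / 2), lt_min hε (by norm_num), fun x hx => ?_,
        fun x hx => absurd (hx.1 0) (Set.notMem_empty _)⟩
      · intro x hx
        rw [Pi.add_apply, Pi.add_apply, hc x hx, cup1_apply, cup1_apply]
        have e1 : pb (Prod.fst : E × ℂ → E) (circI (4 * M) c) (vecTail (rot g ρ ∘ x)) =
            χ * pb Prod.fst (circI (4 * M) c) (vecTail x) := by
          rw [pb_apply, pb_apply, ← hβ (Prod.fst ∘ vecTail x) fun i => (hx _).1]
          rfl
        rw [e1]
        simp only [Function.comp_apply, rot]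
        rw [avc_rot h]
        ring
      · have hd : ∀ i j, dist (x i).2 (x j).2 < 1 / 2 := fun i j => by
          have := hx.2 i j
          rw [Prod.dist_eq, max_lt_iff] at this
          exact this.2.trans_le (min_le_right _ _)
        rw [d_add, Pi.add_apply, d_cup1, d_pb, avc_cocycle hm0 h (hx.1 1).2 (hd 0 1) (hd 1 2),
          zero_mul, cup1_apply, pb_apply, pb_apply, ← hb',
          ← h1 x (hx.mono le_rfl (min_le_left _ _))]
        · simp only [LinearMap.comp_apply, Pi.add_apply, cup1_apply, pb_apply]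
          ring
        · refine ⟨fun i => (hx.1 _).1, fun i j => ?_⟩
          have := hx.2 i.succ j.succ
          rw [Prod.dist_eq, max_lt_iff] at this
          exact this.1.trans_le (min_le_left _ _)
  · refine ⟨circI (4 * M) c, hβ, ε, hε, hb', fun x hx => ?_⟩
    cases p with
    | zero => exact circI_zero c x
    | succ p => exact absurd (hx.1 0) (Set.notMem_empty _)

end Main

end Vale.Agent.P265.AS
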