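import Vale.Agent.P265.H266.Circle

/-! The factor `S²`: `h^(p+2)(X × S²) ≥ h^(p+2)(X) + h^p(X)` and `h^p(X × S²) ≥ h^p(X)`. -/

open Set Matrix Finset

namespace Vale.Agent.P265.AS

section Gen

variable {E E' : Type} {k : Type} [Field k]

theorem prism_eqv {g : E → E} {g' : E' → E'} {f₀ f₁ : E → E'} (h₀ : ∀ a, f₀ (g a) = g' (f₀ a))
    (h₁ : ∀ a, f₁ (g a) = g' (f₁ a)) {X : Set E} {X' : Set E'} (m₀ : ∀ a ∈ X, f₀ a ∈ X')
    (m₁ : ∀ a ∈ X, f₁ a ∈ X') {χ : k} {n : ℕ} {c : (Fin (n + 1) → E') → k}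
    (hc : Eqv g' χ X' c) : Eqv g χ X (prism f₀ f₁ c) := by
  intro x hx
  rw [prism_comp f₀ f₁ g g' c x (fun i => h₀ _) fun i => h₁ _]
  have : prism f₀ f₁ (pb g' c - χ • c) x = 0 := by
    apply prism_eq_zero
    intro y hy
    rw [Pi.sub_apply, pb_apply, hc y, Pi.smul_apply, smul_eq_mul, sub_self]
    intro i
    obtain ⟨j, hj | hj⟩ := hy i
    · exact hj ▸ m₀ _ (hx j)
    · exact hj ▸ m₁ _ (hx j)
  rw [prism_sub, prism_smul, Pi.sub_apply, sub_eq_zero] at this
  exact this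

/-- If `c` vanishes on the tuples whose first two entries are in the image of `f₀`, only the first
term of the prism operator survives. -/
theorem prism_first (f₀ f₁ : E → E') {n : ℕ} {c : (Fin (n + 2) → E') → k} {x : Fin (n + 1) → E}
    (h : ∀ y : Fin (n + 2) → E', (∃ a, y 0 = f₀ a) → (∃ a, y 1 = f₀ a) → c y = 0) :
    prism f₀ f₁ c x = c (vecCons (f₀ (vecHead x)) (f₁ ∘ x)) := by
  rw [prism_succ_apply]
  have h1 : prism f₀ f₁ (fun y => c (vecCons (f₀ (vecHead x)) y)) (vecTail x) = 0 := by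
    cases n with
    | zero => rfl
    | succ n =>
      apply prism_eq_zero_of_head
      intro y
      exact h _ ⟨_, rfl⟩ ⟨_, rfl⟩
  rw [h1, sub_zero]
  congr 2
  rw [← comp_vecCons]
  exact congrArg _ (cons_head_tail x)

end Gen

section Sphere

open Complex

variable {k : Type} [Field k]

theorem hup_eq' {c c' : ℂ} (hc : 3 / 4 ≤ ‖c‖ ^ 2) (hre : |c.re| < 1 / 2) (h : dist c c' < 1 / 2) :
    hup k c' = hup k c := by
  have h1 : c.re ^ 2 + c.im ^ 2 = ‖c‖ ^ 2 := by
    have := Complex.sq_norm c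
    rw [Complex.normSq_apply] at this
    nlinarith
  have h2 : |c.im - c'.im| < 1 / 2 := by
    have := Complex.abs_im_le_norm (c - c')
    rw [Complex.sub_im] at this
    rw [Complex.dist_eq] at h
    linarith
  have h3 : c.re ^ 2 < (1 / 2) ^ 2 := sq_lt_sq' (by linarith [(abs_lt.1 hre).1]) (abs_lt.1 hre).2
  have h4 := abs_lt.1 h2
  unfold hup
  by_cases hi : 0 ≤ c.im
  · rw [if_pos hi, if_pos]
    have : 1 / 2 < c.im := by nlinarith
    linarith
  · rw [if_neg hi, if_neg]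
    push Not at hi ⊢
    have : c.im < - (1 / 2) := by nlinarith
    linarith

theorem crs_cocycle' {c₀ c₁ c₂ : ℂ} (h₁ : 3 / 4 ≤ ‖c₁‖ ^ 2)
    (h01 : dist c₀ c₁ < 1 / 2) (h12 : dist c₁ c₂ < 1 / 2) :
    crs k c₁ c₂ - crs k c₀ c₂ + crs k c₀ c₁ = 0 := by
  have h2 : |c₀.re - c₁.re| < 1 / 2 := by
    have := Complex.abs_re_le_norm (c₀ - c₁)
    rw [Complex.sub_re] at this
    rw [Complex.dist_eq] at h01
    linarith
  have h3 := abs_lt.1 h2
  unfold crs
  by_cases a : c₀.re < 0 <;> by_cases b : c₁.re < 0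
  · rw [if_pos a, if_pos a, if_pos b]; ring
  · have : |c₁.re| < 1 / 2 := by rw [abs_lt]; constructor <;> linarith
    rw [if_pos a, if_pos a, if_neg b, hup_eq' h₁ this h12]; ring
  · have : |c₁.re| < 1 / 2 := by rw [abs_lt]; constructor <;> linarith
    rw [if_neg a, if_neg a, if_pos b, hup_eq' h₁ this h12]; ring
  · rw [if_neg a, if_neg a, if_neg b]; ring

theorem crs_smul {r : ℝ} (hr : 0 < r) (c c' : ℂ) : crs k (r * c) (r * c') = crs k c c' := by
  have h1 : ∀ c : ℂ, hup k ((r : ℂ) * c) = hup k c := by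
    intro c
    unfold hup
    simp only [Complex.im_ofReal_mul, mul_nonneg_iff_of_pos_left hr]
  unfold crs
  rw [h1, h1]
  simp only [Complex.re_ofReal_mul]
  by_cases h : c.re < 0
  · rw [if_pos h, if_pos (mul_neg_of_pos_of_neg hr h)]
  · rw [if_neg h, if_neg]
    push Not at h ⊢
    positivity

/-- indicator of the northern hemisphere -/
noncomputable def nor (k : Type) [Field k] (v : ℝ × ℂ) : k := by
  classical exact if 0 < v.1 then 1 else 0

/-- the coboundary of `nor` -/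
noncomputable def dnor (k : Type) [Field k] (v v' : ℝ × ℂ) : k := nor k v' - nor k v

theorem dnor_cocycle (v₀ v₁ v₂ : ℝ × ℂ) :
    dnor k v₁ v₂ - dnor k v₀ v₂ + dnor k v₀ v₁ = 0 := by unfold dnor; ring

theorem dnor_eq_zero {v v' : ℝ × ℂ} (h : dist v v' < 1 / 4) :
    dnor k v v' = 0 ∨ |v'.1| < 1 / 4 := by
  rw [Prod.dist_eq, max_lt_iff, Real.dist_eq] at h
  have h1 := abs_lt.1 h.1
  unfold dnor nor
  by_cases a : 0 < v.1 <;> by_cases b : 0 < v'.1
  · left; rw [if_pos a, if_pos b]; ring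
  · right
    push Not at b
    rw [abs_lt]; constructor <;> linarith
  · right
    push Not at a
    rw [abs_lt]; constructor <;> linarith
  · left; rw [if_neg a, if_neg b]; ring

theorem near_equator {v w : ℝ × ℂ} (hv : |v.1| < 1 / 4) (h : dist v w < 1 / 4)
    (hw : w.1 ^ 2 + ‖w.2‖ ^ 2 = 1) : 3 / 4 ≤ ‖w.2‖ ^ 2 := by
  rw [Prod.dist_eq, max_lt_iff, Real.dist_eq] at h
  have h1 := abs_lt.1 h.1
  have h2 := abs_lt.1 hv
  nlinarith

variable {E : Type}

/-- the circle of latitude number `i` (out of `R`) -/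
noncomputable def lat (R : ℕ) (i : ℕ) (p : E × ℂ) : E × (ℝ × ℂ) :=
  (p.1, (Real.sin (-(Real.pi / 2) + Real.pi * (i / R)),
    (Real.cos (-(Real.pi / 2) + Real.pi * (i / R)) : ℝ) * p.2))

theorem lat_zero (R : ℕ) (p : E × ℂ) : lat R 0 p = (p.1, (-1, 0)) := by
  unfold lat
  simp

theorem lat_self {R : ℕ} (hR : R ≠ 0) (p : E × ℂ) : lat R R p = (p.1, (1, 0)) := by
  unfold lat
  have : -(Real.pi / 2) + Real.pi * ((R : ℝ) / R) = Real.pi / 2 := by
    rw [div_self (by exact_mod_cast hR)]; ring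
  rw [this]
  simp

theorem nor_lat {S i : ℕ} (hS : 0 < S) (hi : i ≤ 2 * S) (p : E × ℂ) :
    nor k (lat (2 * S) i p).2 = if S < i then 1 else 0 := by
  have hπ := Real.pi_pos
  have hS' : (0 : ℝ) < S := by exact_mod_cast hS
  have key : (0 < Real.sin (-(Real.pi / 2) + Real.pi * ((i : ℝ) / ((2 * S : ℕ) : ℝ)))) ↔ S < i := by
    have h0 : (i : ℝ) / ((2 * S : ℕ) : ℝ) ≤ 1 := by
      rw [div_le_one (by positivity)]
      exact_mod_cast hi
    constructor
    · intro h
      by_contra hc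
      push Not at hc
      have h1 : (i : ℝ) / ((2 * S : ℕ) : ℝ) ≤ 1 / 2 := by
        rw [div_le_iff₀ (by positivity)]
        have : (i : ℝ) ≤ S := by exact_mod_cast hc
        push_cast
        linarith
      have h2 : 0 ≤ (i : ℝ) / ((2 * S : ℕ) : ℝ) := by positivity
      have : Real.sin (-(Real.pi / 2) + Real.pi * ((i : ℝ) / ((2 * S : ℕ) : ℝ))) ≤ 0 := by
        apply Real.sin_nonpos_of_nonpos_of_neg_pi_le
        · nlinarith
        · nlinarith
      linarith
    · intro h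
      have h1 : 1 / 2 < (i : ℝ) / ((2 * S : ℕ) : ℝ) := by
        rw [lt_div_iff₀ (by positivity)]
        have : (S : ℝ) < i := by exact_mod_cast h
        push_cast
        linarith
      apply Real.sin_pos_of_pos_of_lt_pi
      · nlinarith
      · nlinarith
  unfold nor lat
  simp only [key]

theorem cos_lat_pos {S : ℕ} (hS : 1 < S) :
    0 < Real.cos (-(Real.pi / 2) + Real.pi * (((S + 1 : ℕ) : ℝ) / ((2 * S : ℕ) : ℝ))) := by
  have hπ := Real.pi_pos
  have hS' : (1 : ℝ) < S := by exact_mod_cast hS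
  have h1 : ((S + 1 : ℕ) : ℝ) / ((2 * S : ℕ) : ℝ) < 1 := by
    rw [div_lt_one (by positivity)]
    push_cast
    linarith
  have h2 : 0 < ((S + 1 : ℕ) : ℝ) / ((2 * S : ℕ) : ℝ) := by positivity
  apply Real.cos_pos_of_mem_Ioo
  constructor <;> nlinarith

/-- sum of the prism operators between consecutive latitudes -/
noncomputable def latI (R : ℕ) {n : ℕ} (c : (Fin (n + 1) → E × (ℝ × ℂ)) → k) :
    (Fin n → E × ℂ) → k := ∑ i ∈ range R, prism (lat R i) (lat R (i + 1)) c

theorem latI_d (R : ℕ) {n : ℕ} (c : (Fin (n + 1) → E × (ℝ × ℂ)) → k) :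
    latI R (d c) = pb (lat R R) c - pb (lat R 0) c - d (latI R c) := by
  funext x
  have h1 : d (latI R c) x = ∑ i ∈ range R, d (prism (lat R i) (lat R (i + 1)) c) x := by
    rw [latI, ← dL_apply, map_sum, Finset.sum_apply]
    rfl
  rw [Pi.sub_apply, h1, eq_sub_iff_add_eq, latI, Finset.sum_apply, ← Finset.sum_add_distrib]
  have h2 : ∀ i ∈ range R, prism (lat R i) (lat R (i + 1)) (d c) x +
      d (prism (lat R i) (lat R (i + 1)) c) x = c (lat R (i + 1) ∘ x) - c (lat R i ∘ x) := by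
    intro i _
    rw [add_comm, d_prism]
  rw [Finset.sum_congr rfl h2, Finset.sum_range_sub (fun i => c (lat R i ∘ x))]
  rfl

theorem circI_add {N : ℕ} {n : ℕ} (c c' : (Fin (n + 1) → E × ℂ) → k) (x : Fin n → E) :
    circI N (c + c') x = circI N c x + circI N c' x := by
  simp only [circI, prism_add, Pi.add_apply, Finset.sum_add_distrib]

theorem circI_sub {N : ℕ} {n : ℕ} (c c' : (Fin (n + 1) → E × ℂ) → k) (x : Fin n → E) :
    circI N (c - c') x = circI N c x - circI N c' x := by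
  simp only [circI, prism_sub, Pi.sub_apply, Finset.sum_sub_distrib]

/-- integration over the sphere commutes with the coboundary -/
theorem sphI_d {N R : ℕ} (hN : N ≠ 0) (hNk : (N : k) = 0) (hR : R ≠ 0) {n : ℕ}
    (c : (Fin (n + 2) → E × (ℝ × ℂ)) → k) (x : Fin (n + 1) → E) :
    circI N (latI R (d c)) x = d (circI N (latI R c)) x := by
  rw [latI_d, circI_sub, circI_sub, circI_d hN]
  have e1 : pb (lat R R) c = pb Prod.fst (pb (fun a : E => (a, ((1 : ℝ), (0 : ℂ)))) c) := by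
    funext y
    simp only [pb_apply]
    congr 1
    funext i
    exact lat_self hR _
  have e2 : pb (lat R 0) c = pb Prod.fst (pb (fun a : E => (a, ((-1 : ℝ), (0 : ℂ)))) c) := by
    funext y
    simp only [pb_apply]
    congr 1
    funext i
    exact lat_zero R _
  rw [e1, e2, circI_pb hNk, circI_pb hNk]
  ring

theorem sphI_pb {N R : ℕ} (hNk : (N : k) = 0) {n : ℕ} (a : (Fin (n + 2) → E) → k)
    (x : Fin n → E) : circI N (latI R (pb (Prod.fst : E × (ℝ × ℂ) → E) a)) x = 0 := by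
  have : latI R (pb (Prod.fst : E × (ℝ × ℂ) → E) a) =
      pb (Prod.fst : E × ℂ → E) ((R : k) • prism id id a) := by
    funext y
    rw [latI, Finset.sum_apply]
    have h2 : ∀ i ∈ range R, prism (lat R i) (lat R (i + 1))
        (pb (Prod.fst : E × (ℝ × ℂ) → E) a) y = prism id id a (Prod.fst ∘ y) := by
      intro j _
      rw [prism_pb, prism_precomp]; rfl
    rw [Finset.sum_congr rfl h2, Finset.sum_const, Finset.card_range, nsmul_eq_mul]
    rfl
  rw [this, circI_pb hNk]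

/-- the 2-cochain of the sphere times `b` -/
noncomputable def sig (k E : Type) [Field k] {n : ℕ} :
    ((Fin (n + 1) → E) → k) →ₗ[k] ((Fin (n + 3) → E × (ℝ × ℂ)) → k) :=
  cup1 (fun p q : E × (ℝ × ℂ) => dnor k p.2 q.2) ∘ₗ
    cup1 (fun p q : E × (ℝ × ℂ) => crs k p.2.2 q.2.2) ∘ₗ pb Prod.fst

theorem sphI_sig {M S : ℕ} (hM : 0 < M) (hS : 1 < S) {n : ℕ}
    (b : (Fin (n + 1) → E) → k) (x : Fin (n + 1) → E) :
    circI (4 * M) (latI (2 * S) (sig k E b)) x = - b x := by
  have : latI (2 * S) (sig k E b) =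
      cup1 (fun p q : E × ℂ => crs k p.2 q.2) (pb Prod.fst b) := by
    funext y
    have h1 : ∀ i ∈ range (2 * S), prism (lat (2 * S) i) (lat (2 * S) (i + 1)) (sig k E b) y =
        ((if S < i + 1 then 1 else 0) - (if S < i then (1 : k) else 0)) *
        cup1 (fun p q : E × (ℝ × ℂ) => crs k p.2.2 q.2.2) (pb Prod.fst b)
          (lat (2 * S) (i + 1) ∘ y) := by
      intro i hi
      rw [Finset.mem_range] at hi
      rw [prism_first]
      · rw [sig, LinearMap.comp_apply, cup1_apply, tail_cons, LinearMap.comp_apply]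
        simp only [cons_val_zero, cons_val_one, Function.comp_apply, dnor]
        rw [nor_lat (by omega) (by omega), nor_lat (by omega) (by omega)]
      · rintro z ⟨a, ha⟩ ⟨a', ha'⟩
        rw [sig, LinearMap.comp_apply, cup1_apply, ha, ha']
        simp only [dnor]
        rw [nor_lat (by omega) (by omega), nor_lat (by omega) (by omega)]
        ring
    rw [latI, Finset.sum_apply, Finset.sum_congr rfl h1, Finset.sum_eq_single S]
    · rw [if_pos (by omega), if_neg (by omega), sub_zero, one_mul, cup1_apply, cup1_apply]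
      simp only [Function.comp_apply, lat]
      rw [crs_smul (cos_lat_pos hS)]
      rfl
    · intro i _ hi
      have : ((if S < i + 1 then 1 else 0) - (if S < i then (1 : k) else 0)) = 0 := by
        rcases lt_or_gt_of_ne hi with h | h
        · rw [if_neg (by omega), if_neg (by omega), sub_zero]
        · rw [if_pos (by omega), if_pos (by omega), sub_self]
      rw [this, zero_mul]
    · intro h
      exact absurd (Finset.mem_range.2 (by omega)) h
  rw [this, circI_cup (crs k) crs_self, sum_crs hM, neg_one_mul]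

variable [PseudoMetricSpace E]

/-- the product with the unit sphere -/
def sph (X : Set E) : Set (E × (ℝ × ℂ)) := {p | p.1 ∈ X ∧ p.2.1 ^ 2 + ‖p.2.2‖ ^ 2 = 1}

omit [PseudoMetricSpace E] in
theorem lat_mem_sph {X : Set E} (R i : ℕ) {p : E × ℂ} (hp : p ∈ circ X) :
    lat R i p ∈ sph X := by
  refine ⟨hp.1, ?_⟩
  simp only [lat, norm_mul, hp.2, mul_one, Complex.norm_real, Real.norm_eq_abs, sq_abs]
  exact Real.sin_sq_add_cos_sq _

omit [PseudoMetricSpace E] in
theorem sphI_eqv {g : E → E} {χ : k} {X : Set E} {N R : ℕ} (hN : N ≠ 0)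
    {n : ℕ} {c : (Fin (n + 2) → E × (ℝ × ℂ)) → k} (hc : Eqv (Prod.map g id) χ (sph X) c) :
    Eqv g χ X (circI N (latI R c)) := by
  apply circI_eqv (ρ := 1) hN (one_pow _)
  intro x hx
  rw [latI, Finset.sum_apply, Finset.sum_apply, Finset.mul_sum]
  refine Finset.sum_congr rfl fun i _ => ?_
  refine prism_eqv (g := rot g 1) (g' := Prod.map g id) (X := circ X) (X' := sph X) ?_ ?_ ?_ ?_
    hc x hx
  · intro a; simp [lat, rot]
  · intro a; simp [lat, rot]
  · exact fun a ha => lat_mem_sph R i ha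
  · exact fun a ha => lat_mem_sph R (i + 1) ha

omit [PseudoMetricSpace E] in
theorem lat_fst (R i : ℕ) (p : E × ℂ) : (lat R i p).1 = p.1 := rfl

theorem dist_lat {R : ℕ} (hR : R ≠ 0) {i j : ℕ} (hij : j = i ∨ j = i + 1 ∨ i = j + 1)
    {p q : E × ℂ} (hp : ‖p.2‖ ≤ 1) {ε : ℝ} (hpq : dist p q < ε) :
    dist (lat R i p) (lat R j q) < ε + Real.pi / R := by
  have hπ := Real.pi_pos
  have hR' : (0 : ℝ) < R := by exact_mod_cast Nat.pos_of_ne_zero hR
  have h0 : |(i : ℝ) - j| ≤ 1 := by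
    rcases hij with h | h | h
    · subst h; simp
    · subst h; push_cast; rw [abs_le]; constructor <;> linarith
    · subst h; push_cast; rw [abs_le]; constructor <;> linarith
  set a := -(Real.pi / 2) + Real.pi * ((i : ℝ) / R) with ha
  set b := -(Real.pi / 2) + Real.pi * ((j : ℝ) / R) with hb
  have hab : |a - b| ≤ Real.pi / R := by
    have : a - b = Real.pi / R * ((i : ℝ) - j) := by rw [ha, hb]; field_simp; ring
    rw [this, abs_mul, abs_of_pos (by positivity : 0 < Real.pi / R)]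
    exact mul_le_of_le_one_right (by positivity) h0
  rw [Prod.dist_eq, max_lt_iff] at hpq
  have hε : 0 < ε := dist_nonneg.trans_lt hpq.1
  rw [Prod.dist_eq, max_lt_iff]
  constructor
  · show dist p.1 q.1 < _
    linarith [hpq.1, div_pos hπ hR']
  · show dist ((Real.sin a, ((Real.cos a : ℝ) : ℂ) * p.2) : ℝ × ℂ)
      (Real.sin b, ((Real.cos b : ℝ) : ℂ) * q.2) < _
    rw [Prod.dist_eq, max_lt_iff]
    constructor
    · show dist (Real.sin a) (Real.sin b) < _
      rw [Real.dist_eq]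
      linarith [Real.abs_sin_sub_sin_le a b]
    · show dist (((Real.cos a : ℝ) : ℂ) * p.2) (((Real.cos b : ℝ) : ℂ) * q.2) < _
      rw [Complex.dist_eq]
      have h1 : ((Real.cos a : ℝ) : ℂ) * p.2 - ((Real.cos b : ℝ) : ℂ) * q.2 =
          ((Real.cos a - Real.cos b : ℝ) : ℂ) * p.2 + ((Real.cos b : ℝ) : ℂ) * (p.2 - q.2) := by
        push_cast; ring
      rw [h1]
      refine lt_of_le_of_lt (norm_add_le _ _) ?_
      rw [norm_mul, norm_mul, Complex.norm_real, Complex.norm_real, Real.norm_eq_abs,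
        Real.norm_eq_abs]
      have h2 := Real.abs_cos_sub_cos_le a b
      have h3 := hpq.2
      rw [Complex.dist_eq] at h3
      have h4 : |Real.cos a - Real.cos b| * ‖p.2‖ ≤ Real.pi / R :=
        (mul_le_of_le_one_right (abs_nonneg _) hp).trans (h2.trans hab)
      have h5 : |Real.cos b| * ‖p.2 - q.2‖ ≤ ‖p.2 - q.2‖ :=
        mul_le_of_le_one_left (norm_nonneg _) (Real.abs_cos_le_one b)
      linarith

theorem Sm.lat {X : Set E} {ε : ℝ} {R : ℕ} (hR : R ≠ 0) (i : ℕ) {n m : ℕ} {x : Fin n → E × ℂ}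
    (hx : Sm (AS.circ X) ε x) {y : Fin m → E × (ℝ × ℂ)}
    (hy : ∀ j, ∃ l, y j = AS.lat R i (x l) ∨ y j = AS.lat R (i + 1) (x l)) :
    Sm (sph X) (ε + Real.pi / R) y := by
  refine ⟨fun j => ?_, fun j j' => ?_⟩
  · obtain ⟨l, hl | hl⟩ := hy j <;> rw [hl]
    · exact lat_mem_sph _ _ (hx.1 l)
    · exact lat_mem_sph _ _ (hx.1 l)
  · obtain ⟨l, hl⟩ := hy j
    obtain ⟨l', hl'⟩ := hy j'
    rcases hl with hl | hl <;> rcases hl' with hl' | hl' <;> rw [hl, hl']
    · exact dist_lat hR (Or.inl rfl) (hx.1 l).2.le (hx.2 _ _)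
    · exact dist_lat hR (Or.inr (Or.inl rfl)) (hx.1 l).2.le (hx.2 _ _)
    · exact dist_lat hR (Or.inr (Or.inr rfl)) (hx.1 l).2.le (hx.2 _ _)
    · exact dist_lat hR (Or.inl rfl) (hx.1 l).2.le (hx.2 _ _)

theorem sphI_congr {X : Set E} {ε : ℝ} {N R : ℕ} (hR : R ≠ 0) (hN : 2 * Real.pi / (N : ℝ) < ε)
    {n : ℕ} {c c' : (Fin (n + 2) → E × (ℝ × ℂ)) → k}
    (h : ∀ y, Sm (sph X) (ε + Real.pi / R) y → c y = c' y) {x : Fin n → E} (hx : Sm X ε x) :
    circI N (latI R c) x = circI N (latI R c') x := by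
  refine circI_congr fun j _ y hy => ?_
  have hy' := hx.circ (norm_cc _ _) (norm_cc _ _) ((dist_cc N j).trans_lt hN) hy
  rw [latI, latI, Finset.sum_apply, Finset.sum_apply]
  refine Finset.sum_congr rfl fun i _ => ?_
  have : prism (AS.lat R i) (AS.lat R (i + 1)) (c - c') y = 0 := by
    apply prism_eq_zero
    intro z hz
    rw [Pi.sub_apply, h z (hy'.lat hR i hz), sub_self]
  rw [prism_sub, Pi.sub_apply, sub_eq_zero] at this
  exact this

theorem isMapP_fst' {g : E → E} {X : Set E} :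
    IsMapP (Prod.map g id) g (sph X) ∅ X ∅ (Prod.fst : E × (ℝ × ℂ) → E) where
  mapsX := fun x hx => hx.1
  mapsA := fun x hx => hx
  eqv := fun x _ => rfl
  uc := fun ε hε => ⟨ε, hε, fun x _ y _ h => lt_of_le_of_lt (by
    rw [Prod.dist_eq]; exact le_max_left _ _) h⟩

theorem isMapP_pt {g : E → E} {X : Set E} :
    IsMapP g (Prod.map g id) X ∅ (sph X) ∅ (fun a : E => (a, ((1 : ℝ), (0 : ℂ)))) where
  mapsX := fun x hx => ⟨hx, by simp⟩
  mapsA := fun x hx => absurd hx (Set.notMem_empty _)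
  eqv := fun x _ => rfl
  uc := fun ε hε => ⟨ε, hε, fun x _ y _ h => by
    rw [Prod.dist_eq, max_lt_iff]; exact ⟨h, by simpa using hε⟩⟩

theorem mem_Bs_of_pb' {g : E → E} {χ : k} {X : Set E} {p : ℕ} {a : (Fin (p + 1) → E) → k}
    (ha : pb (Prod.fst : E × (ℝ × ℂ) → E) a ∈ Bs (Prod.map g id) χ (sph X) ∅ p) :
    a ∈ Bs g χ X ∅ p := by
  have := pb_mem_Bs isMapP_pt (Set.empty_subset _) ha
  exact this

/-- `h^p(X × S²) ≥ h^p(X)`. -/
theorem hh_sph_ge (g : E → E) (χ : k) (X : Set E) (p : ℕ) :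
    hh g χ X ∅ p ≤ hh (Prod.map g id) χ (sph X) ∅ p :=
  qr_le_of_inj (pb Prod.fst) (fun _ hc => pb_mem_Zs isMapP_fst' (Set.empty_subset _) hc)
    fun _ _ hcB => mem_Bs_of_pb' hcB

omit [PseudoMetricSpace E] in
theorem sig_eqv {g : E → E} {χ : k} {X : Set E} {n : ℕ} {b : (Fin (n + 1) → E) → k}
    (hb : Eqv g χ X b) : Eqv (Prod.map g id) χ (sph X) (sig k E b) := by
  intro x hx
  rw [sig, LinearMap.comp_apply, LinearMap.comp_apply, cup1_apply, cup1_apply, cup1_apply,
    cup1_apply]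
  have e1 : pb (Prod.fst : E × (ℝ × ℂ) → E) b (vecTail (vecTail (Prod.map g id ∘ x))) =
      χ * pb Prod.fst b (vecTail (vecTail x)) := by
    rw [pb_apply, pb_apply, ← hb (Prod.fst ∘ vecTail (vecTail x)) fun i => (hx _).1]
    rfl
  rw [e1]
  have e2 : ∀ i, ((Prod.map g id ∘ x) i).2 = (x i).2 := fun i => rfl
  have e3 : ∀ i, (vecTail (Prod.map g id ∘ x) i).2 = (vecTail x i).2 := fun i => rfl
  rw [e2, e2, e3, e3]
  ring

/-- the coboundary of `sig b` on small tuples -/
theorem d_sig {X : Set E} {n : ℕ} (b : (Fin (n + 1) → E) → k) {x : Fin (n + 4) → E × (ℝ × ℂ)}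
    (hx : Sm (sph X) (1 / 4) x) :
    d (sig k E b) x = sig k E (d b) x := by
  have h0 : d (sig k E b) x = - (dnor k (x 0).2 (x 1).2 *
      d (cup1 (fun p q : E × (ℝ × ℂ) => crs k p.2.2 q.2.2) (pb Prod.fst b)) (vecTail x)) := by
    rw [sig, LinearMap.comp_apply, d_cup1, dnor_cocycle, zero_mul, zero_sub, LinearMap.comp_apply,
      cup1_apply]
  have hd : ∀ i j, dist (x i).2 (x j).2 < 1 / 4 := fun i j => by
    have := hx.2 i j
    rw [Prod.dist_eq, max_lt_iff] at this
    exact this.2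
  have hd' : ∀ i j, dist (x i).2.2 (x j).2.2 < 1 / 2 := fun i j => by
    have := hd i j
    rw [Prod.dist_eq, max_lt_iff] at this
    linarith [this.2]
  have h2 : sig k E (d b) x = dnor k (x 0).2 (x 1).2 *
      (crs k (x 1).2.2 (x 2).2.2 * d b (Prod.fst ∘ vecTail (vecTail x))) := rfl
  rw [h0, h2]
  rcases dnor_eq_zero (k := k) (hd 0 1) with h | h
  · rw [h]; ring
  · have h3 := near_equator h (hd 1 2) (hx.1 2).2
    have h4 := crs_cocycle' (k := k) h3 (hd' 1 2) (hd' 2 3)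
    rw [d_cup1, d_pb]
    have e1 : vecTail x 0 = x 1 := rfl
    have e2 : vecTail x 1 = x 2 := rfl
    have e3 : vecTail x 2 = x 3 := rfl
    rw [cup1_apply, e1, e2, e3, h4, zero_mul, zero_sub, pb_apply]
    ring

theorem Sm.fst {X : Set E} {ε : ℝ} {n : ℕ} {x : Fin n → E × (ℝ × ℂ)} (hx : Sm (sph X) ε x) :
    Sm X ε (Prod.fst ∘ x) := by
  refine ⟨fun i => (hx.1 _).1, fun i j => ?_⟩
  have := hx.2 i j
  rw [Prod.dist_eq, max_lt_iff] at this
  exact this.1

theorem Sm.tail {X : Set E} {ε : ℝ} {n : ℕ} {x : Fin (n + 1) → E} (hx : Sm X ε x) :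
    Sm X ε (vecTail x) := hx.sub (sub_tail x)

theorem sig_mem_Zs {g : E → E} {χ : k} {X : Set E} {p : ℕ} {b : (Fin (p + 1) → E) → k}
    (hb : b ∈ Zs g χ X ∅ p) : sig k E b ∈ Zs (Prod.map g id) χ (sph X) ∅ (p + 2) := by
  obtain ⟨hb, ε, hε, h1, h2⟩ := hb
  refine ⟨sig_eqv hb, min ε (1 / 4), lt_min hε (by norm_num), fun x hx => ?_,
    fun x hx => absurd (hx.1 0) (Set.notMem_empty _)⟩
  rw [d_sig b (hx.mono le_rfl (min_le_right _ _))]
  show _ * (_ * d b (Prod.fst ∘ vecTail (vecTail x))) = 0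
  rw [h1 _ ((hx.mono le_rfl (min_le_left _ _)).tail.tail.fst)]
  ring

theorem exists_R {ε : ℝ} (hε : 0 < ε) : ∃ S : ℕ, 1 < S ∧ Real.pi / ((2 * S : ℕ) : ℝ) < ε := by
  obtain ⟨r, hr⟩ := exists_nat_gt (Real.pi / ε)
  have hπ := Real.pi_pos
  have hr0 : (0 : ℝ) < r := lt_trans (by positivity) hr
  refine ⟨r + 2, by omega, ?_⟩
  rw [div_lt_iff₀ (by positivity)]
  rw [div_lt_iff₀ hε] at hr
  push_cast
  nlinarith

/-- `h^(p+2)(X × S²) ≥ h^(p+2)(X) + h^p(X)`. -/
theorem hh_sph_add (g : E → E) (χ : k) (X : Set E) {q : ℕ} (hq : (q : k) = 0) (hq0 : q ≠ 0)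
    (p : ℕ) : hh g χ X ∅ (p + 2) + hh g χ X ∅ p ≤ hh (Prod.map g id) χ (sph X) ∅ (p + 2) := by
  refine add_qr_le (pb Prod.fst) (sig k E)
    (fun _ hc => pb_mem_Zs isMapP_fst' (Set.empty_subset _) hc) (fun b hb => sig_mem_Zs hb) ?_
  rintro a ha b hb ⟨c, hc, ε, hε, h1, -⟩
  have hε2 : 0 < ε / 2 := by positivity
  obtain ⟨M, hM, -, hqM, hlt⟩ := exists_N one_ne_zero hq0 hε2
  obtain ⟨S, hS, hS'⟩ := exists_R hε2
  have hN : 4 * M ≠ 0 := by omega
  have hR : 2 * S ≠ 0 := by omega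
  have hNk : ((4 * M : ℕ) : k) = 0 := by
    obtain ⟨r, hr⟩ := hqM
    rw [hr, Nat.cast_mul, hq, zero_mul]
  -- `b` is the coboundary of minus the integral of `c`
  have hb' : ∀ x, Sm X (ε / 2) x → b x = d (-circI (4 * M) (latI (2 * S) c)) x := by
    intro x hx
    have e1 : circI (4 * M) (latI (2 * S) (pb (Prod.fst : E × (ℝ × ℂ) → E) a + sig k E b)) x =
        circI (4 * M) (latI (2 * S) (d c)) x := by
      refine sphI_congr hR hlt (fun y hy => h1 y (hy.mono le_rfl ?_)) hx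
      linarith
    have e2 : circI (4 * M) (latI (2 * S) (pb (Prod.fst : E × (ℝ × ℂ) → E) a + sig k E b)) x =
        - b x := by
      have e3 : latI (2 * S) (pb (Prod.fst : E × (ℝ × ℂ) → E) a + sig k E b) =
          latI (2 * S) (pb (Prod.fst : E × (ℝ × ℂ) → E) a) + latI (2 * S) (sig k E b) := by
        simp only [latI, prism_add, Finset.sum_add_distrib]
      rw [e3, circI_add, sphI_pb hNk, sphI_sig hM hS, zero_add]
    rw [e2, sphI_d hN hNk hR] at e1
    rw [d_neg, Pi.neg_apply, ← e1, neg_neg]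
  have hβ : Eqv g χ X (-circI (4 * M) (latI (2 * S) c)) := by
    intro x hx
    rw [Pi.neg_apply, Pi.neg_apply, sphI_eqv hN hc x hx]
    ring
  constructor
  · apply mem_Bs_of_pb'
    cases p with
    | zero =>
      refine ⟨c, hc, min ε (ε / 2), lt_min hε hε2, fun x hx => ?_,
        fun x hx => absurd (hx.1 0) (Set.notMem_empty _)⟩
      rw [← h1 x (hx.mono le_rfl (min_le_left _ _)), Pi.add_apply]
      have : b (Prod.fst ∘ vecTail (vecTail x)) = 0 := by
        rw [hb' _ ((hx.mono le_rfl (min_le_right _ _)).tail.tail.fst)]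
        rw [show -circI (4 * M) (latI (2 * S) c) = 0 from funext fun y => by
          rw [Pi.neg_apply, circI_zero, neg_zero]; rfl, d_zero]
        rfl
      have e : sig k E b x = dnor k (x 0).2 (x 1).2 *
        (crs k (x 1).2.2 (x 2).2.2 * b (Prod.fst ∘ vecTail (vecTail x))) := rfl
      rw [e, this]
      ring
    | succ p =>
      set β := -circI (4 * M) (latI (2 * S) c) with hβ'
      refine ⟨c - sig k E β, hc.sub (sig_eqv hβ), min (min ε (ε / 2)) (1 / 4),
        lt_min (lt_min hε hε2) (by norm_num), fun x hx => ?_,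
        fun x hx => absurd (hx.1 0) (Set.notMem_empty _)⟩
      have hx1 := hx.mono (Subset.refl _) (min_le_left _ _)
      rw [d_sub, Pi.sub_apply, d_sig β (hx.mono le_rfl (min_le_right _ _)),
        ← h1 x (hx1.mono le_rfl (min_le_left _ _)), Pi.add_apply]
      have e : ∀ b' : (Fin (p + 1 + 1) → E) → k, sig k E b' x = dnor k (x 0).2 (x 1).2 *
        (crs k (x 1).2.2 (x 2).2.2 * b' (Prod.fst ∘ vecTail (vecTail x))) := fun _ => rfl
      rw [e, e, hb' _ ((hx1.mono le_rfl (min_le_right _ _)).tail.tail.fst)]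
      ring
  · refine ⟨_, hβ, ε / 2, hε2, hb', fun x hx => ?_⟩
    cases p with
    | zero => rw [Pi.neg_apply, circI_zero, neg_zero]
    | succ p => exact absurd (hx.1 0) (Set.notMem_empty _)

end Sphere

end Vale.Agent.P265.AS
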